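import Vale.Agent.P073.H234.ChainDef
import Vale.Agent.P073.H239.FSpec1

/-!
# P073, branch B: threading of a generic property `GX` of the origin (statements)

* `GXOk`: the property holds for almost all origins, along a subsequence of generations;
* `St1X`, `SpecChainX`, `SpecVBX`, `SpecBVBX`: as `St1C`, `SpecChain`, `SpecVB`, `SpecBVB`, with `GX`.
-/

open Set Metric Topology Filter MeasureTheory Matrix WithLp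
open scoped ENNReal NNReal

namespace Vale.Agent.P073.H234.GX

open Vale.Agent.P073
open Vale.Agent.P073.St (V Mat)
open Vale.Agent.P073.SQ (ev)
open Vale.Agent.P073.LOC (Near)
open Vale.Agent.P073.AB (Idx Part edge eInt cl RatGood)
open Vale.Agent.P073.H73 (MinEdge)
open Vale.Agent.P073.H194 (cellT Gen)
open Vale.Agent.P073.H235 (Bx cmp cmpD P2 P1 VData2 SpecGSet bm)
open Vale.Agent.P073.H253 (BVData)
open Vale.Agent.P073.H304 (K3C)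
open Vale.Agent.P073.H696
open Vale.Agent.P073.H234.Ch
open Vale.Agent.P073.H239
open Vale.Agent.P073.H726 (LBOn)
open Vale.Agent.P073.H851 (M3)
open _root_.P073 (ConHomeo)
open _root_.P073.Net (dyc dyo)

/-- a property of the origin `v` and of the generations `nn`, for given `Ω`, `f`, `F` -/
abbrev GXT := Set V → (V → V) → (V → Mat) → V → (ℕ → ℕ) → Prop

/-- the property is generic -/
structure GXOk (p : ℝ) (GX : GXT) : Prop where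
  ex : ∀ (Ω Λ : Set V) (f : V → V) (F : V → Mat), St.IsBoundedDomain Ω → St.IsBoundedDomain Λ →
    St.IsHomeo Ω Λ f → St.IsSobolev p Ω f F → ∀ nn : ℕ → ℕ, StrictMono nn →
    ∃ φ : ℕ → ℕ, StrictMono φ ∧
      ∀ᵐ v ∂(volume.restrict (Icc (0 : V) 1)), GX Ω f F v fun l => nn (φ l)
  sub : ∀ (Ω : Set V) (f : V → V) (F : V → Mat) (v : V) (nn φ : ℕ → ℕ), GX Ω f F v nn →
    StrictMono φ → GX Ω f F v fun l => nn (φ l)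

/-- **Round 1, in the form of the chain**, `St1C` with a generic property `GX` of the origin. `E₀ y`: constant of the solid cubes which are not in the
outermost layer, `Eb y`: constant of all cubes in the boxes (functions of the point), `C₂`: constant
of the cubes outside of the boxes. -/
def St1X (p : ℝ) (GX : GXT) : Prop :=
  ∃ C₂ : ℝ, 0 < C₂ ∧
  ∀ (Ω Λ : Set V) (f : V → V) (F : V → Mat), St.IsBoundedDomain Ω → St.IsBoundedDomain Λ →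
    St.IsHomeo Ω Λ f → St.IsSobolev p Ω f F →
  ∃ E₀ : V → ℝ, (∀ y, ‖cl (F y)‖ ^ p ≤ E₀ y) ∧
  ∀ c₀ : V → ℝ, (∀ y, 0 < c₀ y ∧ c₀ y ≤ 1 / 64) →
  ∃ Eb : V → ℝ, (∀ y, E₀ y ≤ Eb y) ∧
  ∀ (a : V → ℕ) (ε₁ b : ℝ), (∀ y, 4 ≤ a y) → 0 < ε₁ → 0 < b →
  ∃ (k₁ s : V → ℕ) (κ₀ μ₀ : V → ℝ), (∀ y, 0 < κ₀ y ∧ 0 < μ₀ y ∧ 1 / 2 ^ k₁ y ≤ c₀ y ∧
    2 ≤ k₁ y ∧ a y + k₁ y ≤ s y) ∧
  ∀ (κ μ : V → ℝ), (∀ y, 0 < κ y ∧ κ y ≤ κ₀ y ∧ 0 < μ y ∧ μ y ≤ μ₀ y) →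
  ∀ (ε M₀ : ℝ) (c : ℝ≥0∞) (τ φ : V → ℝ) (v : V) (nn : ℕ → ℕ) (K : Set Idx) (x : Idx → V),
    Boxes p ε M₀ c τ φ κ μ s Ω Λ f F v nn K x → GX Ω f F v nn →
  ∀ δs : V → ℝ, LBOn Ω δs → ∃ r : V → ℝ, LBOn Ω r ∧
  ∀ (εD : ℝ≥0∞) (tolD : Idx → ℝ≥0∞) (I : Set Idx) (N' : Idx → ℕ),
    Dom Ω v (HF p Ω F) K (fun k => k.1 + a (x k)) (fun k => k.1 + s (x k)) r εD tolD I N' →
    (∀ k ∈ K, N' k ∈ range nn) →
    (∀ k ∈ K, tolD k ≤ ENNReal.ofReal ((1 / 2 ^ (k.1 + s (x k))) ^ 3)) →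
  ∀ tol : Idx → ℝ≥0∞, (∀ q, tol q ≠ 0) →
  ∃ (Eq : Idx → ℝ) (h₁ : ConHomeo Ω Λ), (∀ q, 0 ≤ Eq q) ∧
    (∀ q, (∀ k ∈ K, ¬ dyc v q.1 q.2 ⊆ dyc v k.1 k.2) → Eq q ≤ C₂) ∧
    (∀ k ∈ K, ∀ q : Idx, dyc v q.1 q.2 ⊆ dyc v k.1 k.2 → Eq q ≤ Eb (x k)) ∧
    (∀ k ∈ K, ∀ z ∈ blk4 k (k.1 + a (x k)), ∀ q : Idx, q.1 = k.1 + a (x k) + k₁ (x k) →
      dyc v q.1 q.2 ⊆ dyc v (k.1 + a (x k)) z → Eq q ≤ E₀ (x k)) ∧
    St1 p ε₁ Ω Λ f F v (HF p Ω F) K x (fun k => k.1 + a (x k)) (fun k => c₀ (x k))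
      (fun k => E₀ (x k)) Eq δs tol
      (part1 v K (fun k => k.1 + a (x k)) (fun k => k₁ (x k)) I)
      (solid v K (fun k => k.1 + a (x k))
        (part1 v K (fun k => k.1 + a (x k)) (fun k => k₁ (x k)) I)) h₁ ∧
    (∀ y ∈ Ω, (∀ k ∈ K, y ∉ dyc v k.1 k.2) → ‖h₁.toFun y - f y‖ ≤ b) ∧
    ∀ e, MinEdge v (part1 v K (fun k => k.1 + a (x k)) (fun k => k₁ (x k)) I) e →
      (∀ k ∈ K, Disjoint (edge v e) (dyc v k.1 k.2)) →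
      eInt v e (fun x => ENNReal.ofReal ‖lineDeriv ℝ h₁.toFun x (ev e.2) - cl (F x) (ev e.2)‖) ≤
        ENNReal.ofReal (b / 2 ^ e.1.1)

/-- **[CHAIN]**, `SpecChain` with a generic property `GX` of the origin: the chain of block B09 up to Round 2, for a given generic origin and for given
oracles (696, 950). `K3C` is used for Round 1. The energies are estimated locally. -/
def SpecChainX (p : ℝ) (GX : GXT) : Prop :=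
  K3C p → ∃ C : ℝ, 1 ≤ C ∧ ∀ (Cu δ : ℝ) (Lc : M3 → ℝ) (j : ℕ), 1 ≤ Cu → (∀ M, 1 ≤ Lc M) →
    0 < δ → 7 ≤ j → ∀ (Ω Λ : Set V) (f : V → V) (F : V → Mat) (v : V) (nn : ℕ → ℕ)
    (εB ε ε' ε₂ M₀ b r₀ : ℝ) (S Zo : Set V)
    (XT : (V → ℝ) → Set Idx → ConHomeo Λ Λ → (V → ℝ) → Prop) (XD : Set Idx → Prop),
    St.IsBoundedDomain Ω → St.IsBoundedDomain Λ → St.IsHomeo Ω Λ f → St.IsSobolev p Ω f F →
    RatGood v Ω f F → StrictMono nn → Gen v nn (HF p Ω F) → GX Ω f F v nn →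
    0 < ε → ε ≤ ε' → ε' ≤ 1 → 0 < ε₂ → 0 < M₀ → 0 < b → 0 < r₀ → S ⊆ Ω → IsCompact S →
    (∃ r > 0, ∫⁻ x in {x | x ∈ Ω ∧ ∃ y ∈ Zo, ‖f x - y‖ ≤ r}, HF p Ω F x ≤
      ENNReal.ofReal (ε / C)) →
    BoxO p εB ε M₀ Ω Λ f F v nn S →
    TgtO Cu Lc Ω Λ ε ε' j v M₀ Zo XT →
    DomO Ω v nn (HF p Ω F) S r₀ XD →
    ∃ (X : R2 p Cu Lc δ j ε' Ω Λ f F v) (I : Set Idx) (k₁ : Idx → ℕ) (r' : V → ℝ),
      ChOut C ε₂ b r₀ S XT XD X I k₁ r'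

/-- **(F1) [VB]** generic origin for the middle plane and for the boxes (16, 523) -/
def SpecVBX (p : ℝ) (GX : GXT) : Prop :=
  ∀ C₀ : ℝ, 1 ≤ p → SpecGSet C₀ → ∀ (θ κ : ℝ) (m₀ : ℕ), 0 < θ → θ ≤ 1 / 2 → 0 < κ →
    ∃ κ' > 0, ∀ (Λ : Set V) (f : V → V) (F : V → Mat), Near p κ' P2 Λ f F →
      St.IsHomeo (Bx (H235.fl θ)) Λ (cmp (H235.fl θ) f) ∧
      St.IsSobolev p (Bx (H235.fl θ)) (cmp (H235.fl θ) f) (cmpD (H235.fl θ) F) ∧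
      ∃ D : VData2 p C₀ θ κ m₀ Λ f F,
        Gen D.v D.nn (HF p (Bx (H235.fl θ)) (cmpD (H235.fl θ) F)) ∧
        GX (Bx (H235.fl θ)) (cmp (H235.fl θ) f) (cmpD (H235.fl θ) F) D.v D.nn ∧
        ∀ᵐ x ∂(volume : Measure V), x ∈ Bx (H235.fl θ) →
          H911.OwnPt p (cmpD (H235.fl θ) F) D.v D.nn x

/-- **(G1) [BVB]** generic origin for the plane, the line and the boxes -/
def SpecBVBX (p : ℝ) (GX : GXT) : Prop :=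
  1 ≤ p → ∀ (θ₁ θ₂ κ : ℝ) (m₀ : ℕ), 0 < θ₁ → θ₁ ≤ 1 / 4 → 0 < θ₂ → θ₂ ≤ 1 / 4 →
    0 < κ → ∃ κ' > 0, ∀ (Λ : Set V) (f : V → V) (F : V → Mat), Near p κ' P1 Λ f F →
      St.IsHomeo (Bx (bm θ₁ θ₂)) Λ (cmp (bm θ₁ θ₂) f) ∧
      St.IsSobolev p (Bx (bm θ₁ θ₂)) (cmp (bm θ₁ θ₂) f) (cmpD (bm θ₁ θ₂) F) ∧
      ∃ D : BVData p θ₁ θ₂ κ m₀ Λ f F,
        Gen D.v D.nn (HF p (Bx (bm θ₁ θ₂)) (cmpD (bm θ₁ θ₂) F)) ∧
        GX (Bx (bm θ₁ θ₂)) (cmp (bm θ₁ θ₂) f) (cmpD (bm θ₁ θ₂) F) D.v D.nn ∧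
        ∀ᵐ x ∂(volume : Measure V), x ∈ Bx (bm θ₁ θ₂) →
          H911.OwnPt p (cmpD (bm θ₁ θ₂) F) D.v D.nn x

end Vale.Agent.P073.H234.GX
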