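import Vale.Agent.P073.H234.GX.ChainX
import Vale.Agent.P073.H911.BoxesFin

/-!
# P073, [CHAIN] for finite distortion: the good boxes with a generic property `GX` of the origin
-/

namespace Vale.Agent.P073.H234.GX

open MeasureTheory Set Filter Topology Metric Vale.Agent.P073.St
open Vale.Agent.P073.AB (Idx cl FinDist RatGood edge eInt squ)
open Vale.Agent.P073.H194 (sInt Gen)
open Vale.Agent.P073.PK (IsSob.memLp_cl IsSob.aesm IsSob.lintegral_ne_top)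
open Vale.Agent.P073.H989 (GoodPt rest)
open Vale.Agent.P073.H696 (HF am Boxes SpecBoxes)
open Vale.Agent.P073.H911
open P073.Net (dyc dyo)
open scoped ENNReal NNReal

variable {p : ℝ} {Ω Λ : Set V} {f : V → V} {F : V → Mat}

/-- the origin -/
def SpecOrigX (p : ℝ) (GX : GXT) : Prop :=
  ∀ (Ω Λ : Set V) (f : V → V) (F : V → Mat), St.IsBoundedDomain Ω → St.IsBoundedDomain Λ →
    St.IsHomeo Ω Λ f → St.IsSobolev p Ω f F → ∃ (v : V) (nn : ℕ → ℕ), StrictMono nn ∧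
      RatGood v Ω f F ∧ Gen v nn (HF p Ω F) ∧
      (∀ᵐ x ∂(volume : Measure V), x ∈ Ω → OwnPt p F v nn x) ∧ GX Ω f F v nn

theorem specOrigX (hp : 1 ≤ p) {GX : GXT} (hG : GXOk p GX) : SpecOrigX p GX := by
  intro Ω Λ f F hΩ hΛ hf hF
  have hfc : ContinuousOn f Ω := by
    obtain ⟨h, -, h1, -⟩ := hf
    exact h1
  obtain ⟨φ₁, hφ₁, hgx⟩ := hG.ex Ω Λ f F hΩ hΛ hf hF (fun n => n) strictMono_id
  obtain ⟨φ, hφ, hv⟩ := H523.exists_ownGen hp hΩ hfc hF (M₀ := φ₁) hφ₁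
  have hne : (ae (volume.restrict (Icc (0 : V) 1))).NeBot := by
    rw [ae_neBot, Ne, Measure.restrict_eq_zero]
    simp [Real.volume_Icc_pi]
  obtain ⟨v, hv, hvx⟩ := (hv.and hgx).exists
  refine ⟨v, fun l => φ₁ (φ l), hφ₁.comp hφ, hv.rat, hv.gen, ?_, hG.sub Ω f F v _ φ hvx hφ⟩
  filter_upwards [hv.own hΩ.1 (hφ₁.comp hφ)] with x hx hxΩ j κ hκ
  filter_upwards [hx hxΩ j κ hκ] with l hl
  rw [idx_eq] at hl
  exact hl.2

/-- **(L1)** with `GX` -/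
def SpecBoxesX (p : ℝ) (GX : GXT) : Prop :=
  ∀ (Ω Λ : Set V) (f : V → V) (F : V → Mat), St.IsBoundedDomain Ω → St.IsBoundedDomain Λ →
    St.IsHomeo Ω Λ f → St.IsSobolev p Ω f F → FinDist Ω F → ∀ ε > 0, ∃ M₀ > 0,
    ∀ (τ : V → ℝ) (c : ℝ≥0∞), Continuous τ → (∀ y, 0 ≤ τ y) → (∀ y, 0 < τ y ↔ y ∈ Λ) → c ≠ 0 →
    ∃ φ : V → ℝ, (∀ x, 0 < φ x) ∧ ∀ (κ μ : V → ℝ) (s : V → ℕ), (∀ x, 0 < κ x) → (∀ x, 0 < μ x) →
    ∃ (v : V) (nn : ℕ → ℕ) (K : Set Idx) (x : Idx → V), GX Ω f F v nn ∧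
      Boxes p ε M₀ c τ φ κ μ s Ω Λ f F v nn K x

theorem specBoxesX_of (hp : 3 ≤ p) {GX : GXT} (ho : SpecOrigX p GX) : SpecBoxesX p GX := by
  classical
  intro Ω Λ f F hΩ hΛ hf hF hFD ε hε
  have hp1 : 1 ≤ p := by linarith
  have hp0 : 0 < p := by linarith
  have hΩo := hΩ.1
  have hΛo := hΛ.1
  have hvΩ : volume Ω ≠ ⊤ := PK.volume_ne_top_of_domain hΩ
  have hvΛ : volume Λ ≠ ⊤ := PK.volume_ne_top_of_domain hΛ
  have hfi := IsSob.lintegral_ne_top hp1 hF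
  have hε' : ENNReal.ofReal ε / 2 ≠ 0 := by
    simp [ENNReal.div_eq_zero_iff, hε]
  obtain ⟨M₀, hM₀, hSm, hSi⟩ := exists_threshold hp1 hΩo hvΩ hF hε'
  refine ⟨M₀, hM₀, fun τ c hτc hτ0 hτΛ hc => ?_⟩
  have hw : ∀ y ∈ Λ, ∃ B : NNReal, ∀ᶠ z in 𝓝 y, ENNReal.ofReal (1 / τ z) ^ 3 ≤ B := by
    intro y hy
    have h1 : 0 < τ y := (hτΛ y).2 hy
    refine ⟨Real.toNNReal (1 / (τ y / 2)) ^ 3, ?_⟩
    have h2 : ∀ᶠ z in 𝓝 y, τ y / 2 < τ z :=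
      (hτc.continuousAt (x := y)).eventually (lt_mem_nhds (half_lt_self h1))
    filter_upwards [h2] with z hz
    rw [ENNReal.coe_pow]
    gcongr
    rw [ENNReal.ofReal]
    exact_mod_cast Real.toNNReal_le_toNNReal (one_div_le_one_div_of_le (by positivity) hz.le)
  have hc2 : c / 2 ≠ 0 := by simp [ENNReal.div_eq_zero_iff, hc]
  obtain ⟨φ, U, hφ, hU, hfrac⟩ := exists_frac hΩo hΛo hvΛ hf hw hc2
  refine ⟨fun x => if x ∈ Ω then φ x else 1, fun x => ?_, fun κ μ s hκ hμ => ?_⟩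
  · by_cases hx : x ∈ Ω
    · simp only [hx, if_true]
      exact (hφ x hx).1
    · simp only [hx, if_false]
      exact one_pos
  obtain ⟨v, nn, hmono, hrat, hgen, hown, hgx⟩ := ho Ω Λ f F hΩ hΛ hf hF
  set S : Set V := {x | x ∈ Ω ∧ NonSing (F x) ∧ M₀ * |(cl (F x)).det| < ‖cl (F x)‖ ^ p} with hS
  set Q : V → Prop := fun x => (x ∈ S → ∃ M : ℕ, ∀ m ≥ M, ∀ (v : V) (z : Fin 3 → ℤ),
      x ∈ dyc v m z → ‖cl (F x)‖ₑ ^ p * volume (dyc v m z) ≤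
        2 * ∫⁻ y in dyc v m z ∩ S, ‖cl (F y)‖ₑ ^ p) ∧ OwnPt p F v nn x with hQdef
  have hQ : ∀ᵐ x ∂(volume : Measure V), x ∈ Ω → NonSing (F x) → Q x := by
    filter_upwards [ae_heavy hΩo hvΩ ((IsSob.aesm hF).enorm.pow_const p) hSm hfi, hown]
      with x h1 h2 hx _
    exact ⟨h1 hx, h2 hx⟩
  set P : V → ℝ → ℕ → (Fin 3 → ℤ) → Prop := fun x _ m z =>
    (x ∈ S → ‖cl (F x)‖ₑ ^ p * volume (dyc v m z) ≤
        2 * ∫⁻ y in dyc v m z ∩ S, ‖cl (F y)‖ₑ ^ p) ∧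
    (∀ e : Idx × Fin 3, e.1.1 = m + s x → edge v e ⊆ dyc v m z →
      eInt v e (fun y => ‖cl (F y) - cl (F x)‖ₑ ^ p) ≤ ENNReal.ofReal (κ x / 2 ^ e.1.1)) ∧
    (∀ t : Idx × Fin 3, t.1.1 = m + s x → squ v t ⊆ dyc v m z →
      sInt v t (fun y => ‖cl (F y) - cl (F x)‖ₑ ^ p) ≤
        ENNReal.ofReal (κ x / (2 ^ t.1.1) ^ 2)) ∧
    1 / 2 ^ m ≤ μ x ∧ dyc v m z ⊆ U x ∧
    ∀ y ∈ dyc v m z, ‖f y - am f F x y‖ ≤ κ x / 2 ^ (m + s x) with hPdef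
  have hpow : Tendsto (fun m : ℕ => (1 / 2 ^ m : ℝ)) atTop (𝓝 0) := by
    simpa only [one_div_pow] using
      tendsto_pow_atTop_nhds_zero_of_lt_one (r := (1 / 2 : ℝ)) (by norm_num) (by norm_num)
  have hP : ∀ x, GoodPt p Ω f F x → Q x → ∀ κ' > 0, ∃ᶠ m in atTop, P x κ' m (idx v m x) := by
    intro x hx hQx κ' _
    have hxd : ∀ m, x ∈ dyc v m (idx v m x) := fun m => hc_sub_dyc v m _ (mem_hc_idx v m x)
    have e1 : ∀ᶠ m : ℕ in atTop, (1 / 2 ^ m : ℝ) ≤ μ x := hpow.eventually (ge_mem_nhds (hμ x))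
    have e2 : ∀ᶠ m : ℕ in atTop, dyc v m (idx v m x) ⊆ U x := by
      obtain ⟨r, hr, hrU⟩ := Metric.mem_nhds_iff.1 (hU x hx.mem)
      have e : ∀ᶠ m : ℕ in atTop, (1 / 2 ^ m : ℝ) < r := hpow.eventually (gt_mem_nhds hr)
      filter_upwards [e] with m hm
      exact (H989.dyc_subset_closedBall (hxd m)).trans
        ((closedBall_subset_ball hm).trans hrU)
    have e3 : ∀ᶠ m : ℕ in atTop, ∀ y ∈ dyc v m (idx v m x),
        ‖f y - am f F x y‖ ≤ κ x / 2 ^ (m + s x) := by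
      have hκ' : 0 < κ x / 2 ^ s x := by have := hκ x; positivity
      have h1 := hx.der.isLittleO.def hκ'
      obtain ⟨r, hr, hrU⟩ := Metric.eventually_nhds_iff_ball.1 h1
      have e : ∀ᶠ m : ℕ in atTop, (1 / 2 ^ m : ℝ) < r := hpow.eventually (gt_mem_nhds hr)
      filter_upwards [e] with m hm y hy
      have h2 := H989.dyc_subset_closedBall (hxd m) hy
      have h3 := hrU y (closedBall_subset_ball hm h2)
      have h4 : ‖y - x‖ ≤ 1 / 2 ^ m := by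
        rw [← dist_eq_norm]
        exact h2
      calc ‖f y - am f F x y‖ = ‖f y - f x - cl (F x) (y - x)‖ := by
            congr 1
            simp only [am, aff]
            abel
        _ ≤ κ x / 2 ^ s x * ‖y - x‖ := h3
        _ ≤ κ x / 2 ^ s x * (1 / 2 ^ m) := by gcongr
        _ = κ x / 2 ^ (m + s x) := by
            rw [pow_add]
            field_simp
    have e4 : ∀ᶠ m : ℕ in atTop, (x ∈ S → ‖cl (F x)‖ₑ ^ p * volume (dyc v m (idx v m x)) ≤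
        2 * ∫⁻ y in dyc v m (idx v m x) ∩ S, ‖cl (F y)‖ₑ ^ p) := by
      by_cases hxS : x ∈ S
      · obtain ⟨M, hM⟩ := hQx.1 hxS
        filter_upwards [eventually_ge_atTop M] with m hm _
        exact hM m hm v _ (hxd m)
      · exact Eventually.of_forall fun m h => absurd h hxS
    have e5 : ∃ᶠ m in atTop,
        (∀ e : Idx × Fin 3, e.1.1 = m + s x → edge v e ⊆ dyc v m (idx v m x) →
          eInt v e (fun y => ‖cl (F y) - cl (F x)‖ₑ ^ p) ≤ ENNReal.ofReal (κ x / 2 ^ e.1.1)) ∧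
        ∀ t : Idx × Fin 3, t.1.1 = m + s x → squ v t ⊆ dyc v m (idx v m x) →
          sInt v t (fun y => ‖cl (F y) - cl (F x)‖ₑ ^ p) ≤
            ENNReal.ofReal (κ x / (2 ^ t.1.1) ^ 2) :=
      hmono.tendsto_atTop.frequently (hQx.2 (s x) (κ x) (hκ x)).frequently
    refine (e5.and_eventually (e1.and (e2.and (e3.and e4)))).mono ?_
    rintro m ⟨⟨a1, a2⟩, a3, a4, a5, a6⟩
    exact ⟨a6, a1, a2, a3, a4, a5⟩
  have hτ1 : ∀ y : E3, WithLp.ofLp y ∈ Λ → (0 : ℝ) < (fun _ : E3 => (1 : ℝ)) y := fun _ _ => one_pos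
  obtain ⟨K, x, κ', h1, h2, h3, h4, h5, h6, -, -, -, -, h7⟩ := choice3F hp hΩ hΛ hf hF hFD hQ
    (ε := ENNReal.ofReal ε) (by simpa using hε) v hP (κ₀ := κ) (fun x _ _ => hκ x) hw hc2
    (h := 1) one_pos (τ := fun _ => (1 : ℝ)) (fun x y => by simp [dist_nonneg]) hτ1
  have hinj : ∀ a ∈ Ω, ∀ b ∈ Ω, f a = f b → a = b := by
    obtain ⟨h, hinv, -, -⟩ := hf
    intro a ha b hb hab
    rw [← (hinv.1 a ha).2, ← (hinv.1 b hb).2, hab]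
  have hGF : GoodFam Ω f (fun y => cl (F y)) v K x κ' :=
    ⟨fun k hk => (h1 k hk).1.mem, fun k hk => (h1 k hk).2.2.2.1, fun k hk => (h1 k hk).2.2.2.2.1,
      fun k hk => (h1 k hk).2.2.2.2.2.2.1, h3, h4⟩
  refine ⟨v, nn, K, x, hgx, ⟨hmono, hrat, hgen, fun k hk => ?_, h4, h5, fun k hk => ?_, fun k hk => ?_,
    fun k hk => ?_, fun k hk => ?_, fun k hk => ?_, fun E hE => ?_, ?_, ?_⟩⟩
  · obtain ⟨a1, a2, a3, a4, a5, a6, a7, a8, a9⟩ := h1 k hk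
    exact ⟨a3, a4, a1.det_ne, a8.2.2.2.1⟩
  · exact (h1 k hk).2.2.2.2.2.2.2.1.2.2.2.2.2
  · obtain ⟨a1, a2, a3, a4, a5, a6, a7, a8, a9⟩ := h1 k hk
    exact (image_mono (shr_anti a6)).trans (h3 k hk)
  · exact (h1 k hk).2.2.2.2.2.2.2.1.2.1
  · exact (h1 k hk).2.2.2.2.2.2.2.1.2.2.1
  · obtain ⟨a1, a2, a3, a4, a5, a6, a7, a8, a9⟩ := h1 k hk
    refine a9.trans ?_
    gcongr
  · have h8 := hfrac (fun y => cl (F y)) v K x κ' hGF
      (fun k hk => (h1 k hk).2.2.2.2.2.2.2.1.2.2.2.2.1) E (fun k hk => by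
        have h9 := (hE k hk).2.2
        have hxΩ : x k ∈ Ω := (h1 k hk).1.mem
        simpa only [hxΩ, if_true] using h9)
    refine h8.trans ?_
    calc (∫⁻ y in Λ \ ⋃ k ∈ K, aff f (fun y => cl (F y)) (x k) '' shr v k.1 k.2 (κ' k),
          ENNReal.ofReal (1 / τ y) ^ 3) + c / 2 ≤ c / 2 + c / 2 := by
          gcongr
          exact h6
      _ = c := ENNReal.add_halves c
  · refine (lintegral_mono_set ?_).trans h7
    rintro y ⟨hy, hyn⟩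
    refine ⟨hy, image_sub_of_homeo hf Subset.rfl (mem_image_of_mem f hy), fun h8 => hyn ?_⟩
    obtain ⟨k, hk, h9⟩ := mem_iUnion₂.1 h8
    obtain ⟨u, hu, huy⟩ := h3 k hk h9
    have hud : u ∈ dyc v k.1 k.2 := hc_sub_dyc _ _ _ (dyo_sub_hc _ _ _ hu)
    have : u = y := hinj u ((h1 k hk).2.2.2.1 hud) y hy huy
    exact mem_iUnion₂.2 ⟨k, hk, this ▸ hud⟩
  · have h8 : ∀ k : {k : Idx // k ∈ K ∧ M₀ * |(cl (F (x k))).det| < ‖cl (F (x k))‖ ^ p},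
        ‖cl (F (x k.1))‖ₑ ^ p * volume (dyc v k.1.1 k.1.2) ≤
          2 * ∫⁻ y in dyc v k.1.1 k.1.2 ∩ S, ‖cl (F y)‖ₑ ^ p := by
      rintro ⟨k, hk, hk'⟩
      obtain ⟨a1, a2, a3, a4, a5, a6, a7, a8, a9⟩ := h1 k hk
      exact a8.1 ⟨a1.mem, a1.inv, hk'⟩
    calc ∑' k : {k : Idx // k ∈ K ∧ M₀ * |(cl (F (x k))).det| < ‖cl (F (x k))‖ ^ p},
          ‖cl (F (x k.1))‖ₑ ^ p * volume (dyc v k.1.1 k.1.2)
        ≤ ∑' k : {k : Idx // k ∈ K ∧ M₀ * |(cl (F (x k))).det| < ‖cl (F (x k))‖ ^ p},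
          2 * ∫⁻ y in dyc v k.1.1 k.1.2 ∩ S, ‖cl (F y)‖ₑ ^ p := ENNReal.tsum_le_tsum h8
      _ = 2 * ∑' k : {k : Idx // k ∈ K ∧ M₀ * |(cl (F (x k))).det| < ‖cl (F (x k))‖ ^ p},
          ∫⁻ y in dyc v k.1.1 k.1.2 ∩ S, ‖cl (F y)‖ₑ ^ p := ENNReal.tsum_mul_left
      _ ≤ 2 * ∫⁻ y in S, ‖cl (F y)‖ₑ ^ p := by
          gcongr
          refine tsum_dyc_le (k := fun k : {k : Idx // k ∈ K ∧
            M₀ * |(cl (F (x k))).det| < ‖cl (F (x k))‖ ^ p} => k.1) ?_ hSm _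
          rintro ⟨k, hk, hk'⟩ ⟨l, hl, hl'⟩ hkl
          exact h4 k hk l hl fun h => hkl (Subtype.ext h)
      _ ≤ 2 * (ENNReal.ofReal ε / 2) := by gcongr
      _ = ENNReal.ofReal ε := ENNReal.mul_div_cancel (by norm_num) (by norm_num)

/-- **(L1)** with `GX` -/
theorem specBoxesX (hp : 3 ≤ p) {GX : GXT} (hG : GXOk p GX) : SpecBoxesX p GX :=
  specBoxesX_of hp (specOrigX (by linarith) hG)

end Vale.Agent.P073.H234.GX
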