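import Vale.Agent.P073.H234.GX.Def
import Vale.Agent.P073.H234.ChainFin

/-!
# P073, [CHAIN] with a generic property `GX` of the origin
-/

open Set Metric Topology Filter MeasureTheory Matrix WithLp
open scoped ENNReal NNReal

namespace Vale.Agent.P073.H234.GX

open Vale.Agent.P073
open Vale.Agent.P073.St (V Mat)
open Vale.Agent.P073.SQ (ev)
open Vale.Agent.P073.AB (Idx Part edge eInt cl RatGood)
open Vale.Agent.P073.H73 (MinEdge)
open Vale.Agent.P073.H194 (cellT Gen)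
open Vale.Agent.P073.H696
open Vale.Agent.P073.H234.Ch
open Vale.Agent.P073.H239 (DomL DomO)
open Vale.Agent.P073.H726 (LBOn)
open Vale.Agent.P073.H851 (M3)
open _root_.P073 (ConHomeo)
open _root_.P073.Net (dyc dyo)

/-- **[CHAIN], the data**, with a generic property `GX` of the origin -/
theorem exists_chXX {p : ℝ} {GX : GXT} (hSt : St1X p GX) (hUse : SpecUse p) (hZo : SpecZo p) :
    ∃ C₂ : ℝ, 0 < C₂ ∧ ∀ (Cu δ : ℝ) (Lc : M3 → ℝ) (j : ℕ) (Ω Λ : Set V) (f : V → V) (F : V → Mat)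
      (G : V → (ℕ → ℕ) → Prop) (εB ε ε' M₀ b r₀ : ℝ) (S Zo : Set V) (XT : XT' Λ)
      (XD : V → Set Idx → Prop), 1 ≤ Cu → (∀ M, 1 ≤ Lc M) → 0 < δ → 7 ≤ j →
      St.IsBoundedDomain Ω → St.IsBoundedDomain Λ → St.IsHomeo Ω Λ f → St.IsSobolev p Ω f F →
      0 < ε → 0 < ε' → ε' ≤ 1 → 0 < b → 0 < r₀ →
      (∃ r > 0, ∫⁻ x in {x | x ∈ Ω ∧ ∃ y ∈ Zo, ‖f x - y‖ ≤ r}, HF p Ω F x ≤
        ENNReal.ofReal (ε / 2 ^ p)) →
      (∀ v nn, G v nn → GX Ω f F v nn) →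
      BoxG G p εB ε M₀ Ω Λ f F S → TgtG G Cu Lc Ω Λ ε ε' j M₀ Zo XT →
      (∀ v nn, G v nn → DomO Ω v nn (HF p Ω F) S r₀ (XD v)) → ∀ ε₃ > 0,
      ∃ (v : V) (nn : ℕ → ℕ) (X : R2 p Cu Lc δ j ε' Ω Λ f F v) (c : ℝ≥0∞) (τ φ κ μ : V → ℝ)
        (s : V → ℕ) (c₀ : V → ℝ) (a k₁ : V → ℕ) (E₀ Eb r : V → ℝ) (εD : ℝ≥0∞)
        (tolD : Idx → ℝ≥0∞) (I : Set Idx) (N' : Idx → ℕ) (r' : V → ℝ), G v nn ∧
        XT X.ρ X.J₀ X.Tt r' ∧ (∀ a ∈ Ω, X.δs a ≤ r' a) ∧ XD v I ∧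
        (∀ k ∈ X.K, Disjoint (dyc v k.1 k.2) S) ∧
        ChX X C₂ εB M₀ r₀ b ε₃ c τ φ κ μ s nn c₀ a k₁ E₀ Eb r εD tolD I N' := by
  obtain ⟨C₂, hC₂, hSt⟩ := hSt
  refine ⟨C₂, hC₂, ?_⟩
  intro Cu δ Lc j Ω Λ f F G εB ε ε' M₀ b r₀ S Zo XT XD hCu hLc hδ hj hΩ hΛ hf hF hε hε' hε1 hb hr₀
    hZ hGX hB hT hD ε₃ hε₃
  obtain ⟨rZ, hrZ, hZ⟩ := hZ
  obtain ⟨τ, c, ⟨hτc, hτ0, hτp, hc⟩, hT⟩ := hT
  obtain ⟨φ, hφ, hB⟩ := hB τ c hτc hτ0 hτp hc
  obtain ⟨E₀, hE₀, hSt⟩ := hSt Ω Λ f F hΩ hΛ hf hF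
  obtain ⟨c₀, hc₀, hc₀φ⟩ := H234.Ch.exists_c₀ hφ (Q₀_pos p F E₀) hε₃
  obtain ⟨Eb, hEb, hSt⟩ := hSt c₀ hc₀
  obtain ⟨a, ha4, haφ⟩ := H234.Ch.exists_a hφ (Q₁_pos p F E₀ Eb) hε₃
  obtain ⟨k₁, s, κ₀, μ₀, hks, hSt⟩ := hSt a ε' b ha4 hε' hb
  have h2p : (0:ℝ) < 2 ^ p := by positivity
  have hvol : 0 ≤ (volume Ω).toReal := ENNReal.toReal_nonneg
  obtain ⟨κ, hκ⟩ := exists_κ (a := a) (fun y => (hks y).1) (fun y => (hc₀ y).1)
    (Q₁_pos p F E₀ Eb) hε₃ hrZ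
    (show 0 < ε / (2 ^ p * ((volume Ω).toReal + 1)) by positivity)
  set μ : V → ℝ := fun y => min (μ₀ y) r₀ with hμ
  have hμ0 : ∀ y, 0 < μ y := fun y => lt_min (hks y).2.1 hr₀
  obtain ⟨v, nn, K, x, hG, Bx, hKS, hhigh⟩ := hB κ μ s (fun y => (hκ y).1) hμ0
  have hSt := hSt κ μ (fun y => ⟨(hκ y).1, (hκ y).2.1, hμ0 y, min_le_left _ _⟩) εB M₀ c τ φ v nn K
    x Bx (hGX v nn hG)
  -- the target
  have hZs := hZo Ω Λ f F εB ε M₀ rZ c τ φ κ μ s v nn K x c₀ a Zo hΩ hf hF Bx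
    (fun y => (hc₀ y).1) hε hrZ (fun y => (hκ y).2.2.2.2.1) (fun y => by
      have h1 := (hκ y).2.2.2.2.2
      rw [le_div_iff₀ (by positivity)] at h1
      have h2 : 2 ^ p * κ y * (volume Ω).toReal ≤ κ y * (2 ^ p * ((volume Ω).toReal + 1)) := by
        have h3 : 0 < κ y * 2 ^ p := mul_pos (hκ y).1 h2p
        nlinarith
      linarith) hZ
  obtain ⟨W, δt, ρ, J₀, J, κ', nt, w, Act, Core, CoreN, Tt, r', hW, tg, hsz, hszε, hr', hXT⟩ :=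
    hUse Cu Lc Ω Λ f F εB ε ε' ε' M₀ j c τ φ κ μ s v nn K x c₀ a (fun k => k.1 + s (x k)) Zo XT
      hΩ hΛ hf Bx hc₀ ha4 (fun y => by linarith [(hc₀φ y).1, (haφ y).1])
      (fun y => ⟨(hκ y).1, (hκ y).2.2.1⟩) hhigh hZs hε' (hT v nn hG)
  -- the modulus
  have hfc : ContinuousOn f Ω ∧ MapsTo f Ω Λ := by
    obtain ⟨g, h1, h2, -⟩ := hf
    exact ⟨h2, fun x hx => (h1.1 x hx).1⟩
  obtain ⟨δ', hδ', hmod⟩ := H819.exists_mod (Ω := Ω) (f := f) Tt hΩ.1 hΛ hfc.1 hfc.2 tg.size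
    (fun t ht => tg.tile t (tg.sub ht)) hδ (c₀ := 1 / 64) (by norm_num)
  set δs : V → ℝ := fun a => min (δ' a) (r' a) with hδs
  obtain ⟨r, hr, hSt⟩ := hSt δs (hδ'.min hr')
  -- the domain
  obtain ⟨tolD, htD, htD3, htDQ⟩ := exists_tolD (v := v) (fun k : Idx => Q₁_pos p F E₀ Eb (x k)) hε₃
    (fun k => k.1 + s (x k))
  obtain ⟨I, N', dom, hNN, hXD⟩ := hD v nn hG K (fun k => k.1 + a (x k)) (fun k => k.1 + s (x k)) r
    (ENNReal.ofReal (ε₃ / C₂)) tolD (fun k hk => ⟨(Bx.pt k hk).2.1, by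
      have := ha4 (x k)
      omega, by
      have := (hks (x k)).2.2.2
      omega⟩) Bx.disj Bx.fin hKS hr
    (ENNReal.ofReal_pos.2 (by positivity)).ne' htD
  obtain ⟨tol, htol, htolQ⟩ := exists_tolQ (K := K) (n := fun k => k.1 + a (x k))
    (k₁ := fun k => k₁ (x k)) dom.part C₂ (fun k => Eb (x k))
    (ENNReal.ofReal_pos.2 hε₃).ne'
  obtain ⟨Eq, h₁, e0, e1, e2, e3, st, clo, edg⟩ := hSt (ENNReal.ofReal (ε₃ / C₂)) tolD I N'
    dom.toDom hNN (fun k _ => htD3 k) tol htol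
  have hgen : ∀ k ∈ K, ∀ q ∈ solid v K (fun k => k.1 + a (x k))
      (part1 v K (fun k => k.1 + a (x k)) (fun k => k₁ (x k)) I), dyc v q.1 q.2 ⊆ dyc v k.1 k.2 →
      k.1 + a (x k) + k₁ (x k) ≤ q.1 ∧ q.1 ≤ k.1 + s (x k) := by
    intro k hk q hq hqk
    have h1 := (hks (x k)).2.2.2
    rcases solid_gen dom.toDom Bx.disj (fun k _ => Nat.le_add_right _ _) hk hq hqk with h | h
    · omega
    · omega
  set X : R2 p Cu Lc δ j ε' Ω Λ f F v :=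
    { H := HF p Ω F
      K := K
      x := x
      n := fun k => k.1 + a (x k)
      c₀ := fun k => c₀ (x k)
      E := fun k => E₀ (x k)
      Eq := Eq
      δs := δs
      tol := tol
      I₁ := part1 v K (fun k => k.1 + a (x k)) (fun k => k₁ (x k)) I
      S := solid v K (fun k => k.1 + a (x k))
        (part1 v K (fun k => k.1 + a (x k)) (fun k => k₁ (x k)) I)
      h₁ := h₁
      W := W
      δt := δt
      ρ := ρ
      J₀ := J₀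
      J := J
      κ := κ'
      nt := nt
      w := w
      Act := Act
      Core := Core
      CoreN := CoreN
      Tt := Tt
      hε := ⟨hε', hε1⟩
      hCu := hCu
      hLc := hLc
      hj := hj
      hδ := hδ
      hΩ := hΩ
      hΛ := hΛ
      hf := hf
      box := fun k hk => ⟨(Bx.pt k hk).2.1, by
        have := ha4 (x k)
        omega, (hc₀ (x k)).1, (hc₀ (x k)).2, (Bx.pt k hk).2.2.1, hE₀ (x k)⟩
      hW := hW
      disj := Bx.disj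
      fin := Bx.fin
      st := st
      tg := tg
      mod := mod_mono hmod fun a => min_le_left _ _
      sz := fun k hk y hy => (hsz k hk y hy).1
      sz' := fun k hk q hq hqk y hy => (hsz k hk y hy).2.trans_le
        (one_div_le_one_div_of_le (by positivity)
          (pow_le_pow_right₀ (by norm_num) (hgen k hk q hq hqk).2))
      szε := hszε
      szS := fun k hk q hq hqk => by
        have h1 := (hgen k hk q hq hqk).1
        have h2 := (hks (x k)).2.2.1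
        have h3 : (1:ℝ) / 2 ^ q.1 ≤ 1 / 2 ^ (k.1 + a (x k) + k₁ (x k)) :=
          one_div_le_one_div_of_le (by positivity) (pow_le_pow_right₀ (by norm_num) h1)
        refine h3.trans ?_
        rw [pow_add _ (k.1 + a (x k)), ← one_div_mul_one_div, div_eq_mul_one_div (c₀ (x k)),
          mul_comm]
        exact mul_le_mul_of_nonneg_right h2 (by positivity) } with hX
  refine ⟨v, nn, X, c, τ, φ, κ, μ, s, c₀, a, k₁, E₀, Eb, r, ENNReal.ofReal (ε₃ / C₂), tolD, I, N',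
    r', hG, hXT, fun a _ => min_le_right _ _, hXD, hKS, ?_⟩
  exact
    { H := rfl
      n := rfl
      cc := rfl
      E := rfl
      box := Bx
      dom := dom
      I₁ := rfl
      S := rfl
      C₂0 := hC₂
      E₀Q := hE₀
      Eb0 := hEb
      Eq0 := e0
      Eq1 := e1
      Eq2 := e2
      Eq3 := e3
      c₀1 := hc₀
      a4 := ha4
      k₁s := fun y => (hks y).2.2
      ε₃0 := hε₃
      cQ := fun y => (hc₀φ y).2
      aQ := fun y => (haφ y).2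
      κQ := fun y => ⟨(hκ y).1, (hκ y).2.2.2.1⟩
      μr := fun y => ⟨hμ0 y, min_le_right _ _⟩
      εDQ := by
        rw [← ENNReal.ofReal_mul hC₂.le, mul_div_cancel₀ _ hC₂.ne']
      tolDQ := fun k _ => htDQ k
      tolQ := htolQ Eq e1 e2
      clo := clo
      edg := edg }

/-- **[CHAIN]** -/
theorem specChainX_of {p : ℝ} {GX : GXT} (hp : 0 ≤ p) (hSt : H304.K3C p → St1X p GX)
    (hUse : SpecUse p) (hZo : SpecZo p) (hEn : SpecEnCh p) : SpecChainX p GX := by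
  intro hK
  obtain ⟨C₂, hC₂, H⟩ := exists_chXX (hSt hK) hUse hZo
  obtain ⟨C, hEn⟩ := hEn C₂ hC₂
  have h2p : (1:ℝ) ≤ 2 ^ p := Real.one_le_rpow (by norm_num) hp
  refine ⟨max C (2 ^ p), h2p.trans (le_max_right _ _), ?_⟩
  intro Cu δ Lc j hCu hLc hδ hj Ω Λ f F v nn εB ε ε' ε₂ M₀ b r₀ S Zo XT XD hΩ hΛ hf hF rat mono gen gx
    hε hεε hε1 hε₂ hM₀ hb hr₀ hS hSc hZ hB hT hD
  obtain ⟨ε₃, hε₃, hEn⟩ := hEn Ω ε₂ hΩ hε₂
  obtain ⟨rZ, hrZ, hZ⟩ := hZ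
  obtain ⟨v', nn', X, c, τ, φ, κ, μ, s, c₀, a, k₁, E₀, Eb, r, εD, tolD, I, N', r', ⟨rfl, rfl⟩, hXT,
    hsm, hXD, hKS, hX⟩ := H Cu δ Lc j Ω Λ f F (fun v' nn' => v' = v ∧ nn' = nn) εB ε ε' M₀ b r₀ S
      Zo XT (fun _ => XD) hCu hLc hδ hj hΩ hΛ hf hF hε (hε.trans_le hεε) hε1 hb hr₀
      ⟨rZ, hrZ, hZ.trans (ENNReal.ofReal_le_ofReal
        (div_le_div_of_nonneg_left hε.le (by linarith) (le_max_right _ _)))⟩
      (by rintro v' nn' ⟨rfl, rfl⟩; exact gx) (BoxG.of_boxO hB) (TgtG.of_tgtO hT) (by rintro v' nn' ⟨rfl, rfl⟩; exact hD) ε₃ hε₃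
  refine ⟨X, I, fun k => k₁ (X.x k), r', ?_⟩
  exact
    { xt := hXT
      small := hsm
      xd := hXD
      eq := hX.I₁
      off := hKS
      en := fun A => by
        refine (hEn Cu δ Lc j ε' Λ f F _ X εB M₀ r₀ b c τ φ κ μ s nn' c₀ a k₁ E₀ Eb r εD tolD I N'
          hF hX A).trans ?_
        gcongr
        exact le_max_left _ _
      close := hX.clo
      edge := hX.edg }

/-- **[CHAIN]** with `GX`: the only open input is Round 1 -/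
theorem specChainX {p : ℝ} {GX : GXT} (hp : 1 ≤ p) (hSt : H304.K3C p → St1X p GX) :
    SpecChainX p GX :=
  specChainX_of (by linarith) hSt (specUse (by linarith)) (H16.specZo hp) (H989.specEnCh hp)

end Vale.Agent.P073.H234.GX
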