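import Vale.Agent.P073.H234.GX.BoxX
import Vale.Agent.P073.H234.M1PK

/-!
# P073, block B09: `M1P p` (`3 ≤ p`) from Round 1 and (K3C), with a generic property `GX` of the
origin
-/

open Set Metric Topology Filter MeasureTheory Matrix WithLp
open scoped ENNReal NNReal

namespace Vale.Agent.P073.H234.GX

open Vale.Agent.P073
open Vale.Agent.P073.St (V Mat)
open Vale.Agent.P073.SQ (ev)
open Vale.Agent.P073.AB (Idx Part edge eInt cl RatGood FinDist)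
open Vale.Agent.P073.H73 (MinEdge)
open Vale.Agent.P073.H194 (cellT Gen)
open Vale.Agent.P073.H696
open Vale.Agent.P073.H234.Ch
open Vale.Agent.P073.H239 (DomL DomO)
open Vale.Agent.P073.H726 (LBOn)
open Vale.Agent.P073.H851 (M3)
open _root_.P073 (ConHomeo)
open _root_.P073.Net (dyc dyo)

theorem boxGX_of {p ε M₀ : ℝ} {Ω Λ : Set V} {f : V → V} {F : V → Mat} {GX : GXT}
    (h : ∀ (τ : V → ℝ) (c : ℝ≥0∞), Continuous τ → (∀ y, 0 ≤ τ y) → (∀ y, 0 < τ y ↔ y ∈ Λ) →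
      c ≠ 0 → ∃ φ : V → ℝ, (∀ x, 0 < φ x) ∧ ∀ (κ μ : V → ℝ) (s : V → ℕ), (∀ x, 0 < κ x) →
      (∀ x, 0 < μ x) → ∃ (v : V) (nn : ℕ → ℕ) (K : Set Idx) (x : Idx → V), GX Ω f F v nn ∧
        Boxes p ε M₀ c τ φ κ μ s Ω Λ f F v nn K x) :
    BoxG (fun v nn => GM p Ω f F v nn ∧ GX Ω f F v nn) p ε ε M₀ Ω Λ f F ∅ := by
  intro τ c h1 h2 h3 h4
  obtain ⟨φ, h5, h⟩ := h τ c h1 h2 h3 h4
  refine ⟨φ, h5, fun κ μ s h6 h7 => ?_⟩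
  obtain ⟨v, nn, K, x, hx, B⟩ := h κ μ s h6 h7
  exact ⟨v, nn, K, x, ⟨⟨B.mono, B.rat, B.gen⟩, hx⟩, B, fun k _ => disjoint_empty _, B.high⟩

/-- **[CHAIN] for finite distortion.** -/
theorem exists_chMX {p : ℝ} (hp : 3 ≤ p) {GX : GXT} (hG : GXOk p GX) (hSt : St1X p GX) :
    ∃ (C₂ Cu : ℝ) (Lc : M3 → ℝ), 0 < C₂ ∧ 1 ≤ Cu ∧ (∀ M, 1 ≤ Lc M) ∧
      ∀ (δ : ℝ) (j : ℕ), 0 < δ → 7 ≤ j → ∀ (Ω Λ : Set V) (f : V → V) (F : V → Mat),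
      St.IsBoundedDomain Ω → St.IsBoundedDomain Λ → St.IsHomeo Ω Λ f → St.IsSobolev p Ω f F →
      FinDist Ω F → ∀ ε : ℝ, 0 < ε → ε ≤ 1 / 2 → ∀ ε₃ > 0,
      ∃ (v : V) (nn : ℕ → ℕ) (X : R2 p Cu Lc δ j (2 * ε) Ω Λ f F v) (M₀ : ℝ) (c : ℝ≥0∞)
        (τ φ κ μ : V → ℝ) (s : V → ℕ) (c₀ : V → ℝ) (a k₁ : V → ℕ) (E₀ Eb r : V → ℝ) (εD : ℝ≥0∞)
        (tolD : Idx → ℝ≥0∞) (I : Set Idx) (N' : Idx → ℕ),
        ChX X C₂ ε M₀ 1 1 ε₃ c τ φ κ μ s nn c₀ a k₁ E₀ Eb r εD tolD I N' := by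
  obtain ⟨C₂, hC₂, H⟩ := exists_chXX hSt (specUse (by linarith)) (H16.specZo (by linarith))
  obtain ⟨Cu, Lc, hCu, hLc, hT⟩ := H851.specTgt
  refine ⟨C₂, Cu, Lc, hC₂, hCu, hLc, ?_⟩
  intro δ j hδ hj Ω Λ f F hΩ hΛ hf hF hfd ε hε hε1 ε₃ hε₃
  obtain ⟨M₀, hM₀, hB⟩ := specBoxesX hp hG Ω Λ f F hΩ hΛ hf hF hfd ε hε
  obtain ⟨v, nn, X, c, τ, φ, κ, μ, s, c₀, a, k₁, E₀, Eb, r, εD, tolD, I, N', r', -, -, -, -, -,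
    hX⟩ := H Cu δ Lc j Ω Λ f F (fun v nn => GM p Ω f F v nn ∧ GX Ω f F v nn) ε ε (2 * ε) M₀ 1 1 ∅ ∅ (fun _ _ _ _ => True)
      (fun _ _ => True) hCu hLc hδ hj hΩ hΛ hf hF hε (by linarith) (by linarith) one_pos one_pos
      ⟨1, one_pos, by simp⟩ (fun v nn h => h.2) (boxGX_of hB) (tgtG_of Ω Λ _ (by omega) (hT Λ hΛ ε hε M₀ hM₀))
      (fun v nn hG K n N r ε' tol h1 h2 h3 h4 h5 h6 h7 => by
        obtain ⟨I, N', h8, h9, -⟩ := H194.specDomL Ω v nn (HF p Ω F) ∅ 1 0 hΩ hG.1.1 hG.1.2.2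
          (lint_HF_ne_top (by linarith) hΩ hF) one_pos (empty_subset _) isCompact_empty K n N r ε'
          tol h1 h2 h3 h4 h5 h6 h7
        exact ⟨I, N', h8, h9, trivial⟩) ε₃ hε₃
  exact ⟨v, nn, X, M₀, c, τ, φ, κ, μ, s, c₀, a, k₁, E₀, Eb, r, εD, tolD, I, N', hX⟩

/-- the data of the chain -/
theorem chMX {p : ℝ} (hp : 3 ≤ p) {GX : GXT} (hG : GXOk p GX) (hSt : St1X p GX) :
    H950F.ChM p := by
  obtain ⟨C₂, Cu, Lc, -, hCu, hLc, H⟩ := exists_chMX hp hG hSt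
  refine ⟨Cu, Lc, C₂, hCu, hLc, fun δ j hδ hj Ω Λ f F hΩ hΛ hf hF hfd ε hε hε1 => ?_⟩
  obtain ⟨v, nn, X, M₀, c, τ, φ, κ, μ, s, c₀, a, k₁, E₀, Eb, r, εD, tolD, I, N', hX⟩ :=
    H δ j hδ hj Ω Λ f F hΩ hΛ hf hF hfd ε hε hε1 ε hε
  exact ⟨v, X, M₀, 1, 1, c, τ, φ, κ, μ, s, nn, c₀, a, k₁, E₀, Eb, r, εD, tolD, I, N', hX⟩

/-- **(M1P)** for `3 ≤ p`: the open inputs are Round 1 (with a generic property of the origin) and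
(K3C) -/
theorem m1P_of_K3X {p : ℝ} (hp : 3 ≤ p) {GX : GXT} (hG : GXOk p GX)
    (hSt : H304.K3C p → St1X p GX) (hK : H304.K3C p) : H235.M1P p :=
  H950F.m1P_of_chM (by linarith) (chMX hp hG (hSt hK)) (H490.specR2 (by linarith) hK)

end Vale.Agent.P073.H234.GX
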